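import Mathlib

/-! P330: bounded generation of `SL₃` over a local ring by elementary matrices. -/

open Matrix

namespace Vale.Agent.P330.Exp

variable {R : Type} [CommRing R]

/-- The group. -/
abbrev SL3 (R : Type) [CommRing R] : Type := SpecialLinearGroup (Fin 3) R

/-- Elementary matrices. -/
abbrev el {i j : Fin 3} (h : i ≠ j) (a : R) : SL3 R := SpecialLinearGroup.transvection h a

theorem el_same {i j : Fin 3} (h : i ≠ j) (a : R) (g : SL3 R) (b : Fin 3) :
    (el h a * g) i b = g i b + a * g j b :=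
  transvection_mul_apply_same i j b a g.1

theorem el_ne {i j : Fin 3} (h : i ≠ j) (a : R) (g : SL3 R) {k : Fin 3} (hk : k ≠ i) (b : Fin 3) :
    (el h a * g) k b = g k b :=
  transvection_mul_apply_of_ne i j k b hk a g.1

theorem det3 (g : SL3 R) : g 0 0 * g 1 1 * g 2 2 - g 0 0 * g 1 2 * g 2 1 - g 0 1 * g 1 0 * g 2 2 +
    g 0 1 * g 1 2 * g 2 0 + g 0 2 * g 1 0 * g 2 1 - g 0 2 * g 1 1 * g 2 0 = 1 :=
  (det_fin_three g.1).symm.trans g.2

section
variable (D : SL3 R → ℝ) {δ : ℝ} (h1 : D 1 ≤ 0)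
  (hs : ∀ (i j : Fin 3) (h : i ≠ j) (a : R) (g : SL3 R), D g ≤ δ + D (el h a * g))
include h1 hs

theorem bg_upper (g : SL3 R) (a : g 0 0 = 1) (b : g 1 0 = 0) (c : g 2 0 = 0) (d : g 1 1 = 1)
    (e : g 2 1 = 0) : D g ≤ 3 * δ := by
  have f : g 2 2 = 1 := by
    have := det3 g
    rw [a, b, c, d, e] at this
    simpa using this
  have n12 : (1 : Fin 3) ≠ 2 := by decide
  have n02 : (0 : Fin 3) ≠ 2 := by decide
  have n01 : (0 : Fin 3) ≠ 1 := by decide
  have k : el n01 (-g 0 1) * (el n02 (-g 0 2) * (el n12 (-g 1 2) * g)) = 1 := by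
    ext i j
    fin_cases i <;> fin_cases j <;>
      simp [el_same, el_ne, a, b, c, d, e, f, n12, n02, n01, n12.symm, n02.symm, n01.symm]
  have s1 := hs _ _ n12 (-g 1 2) g
  have s2 := hs _ _ n02 (-g 0 2) (el n12 (-g 1 2) * g)
  have s3 := hs _ _ n01 (-g 0 1) (el n02 (-g 0 2) * (el n12 (-g 1 2) * g))
  rw [k] at s3
  linarith

theorem bg_4 (g : SL3 R) (a : g 0 0 = 1) (b : g 1 0 = 0) (c : g 2 0 = 0) (d : g 1 1 = 1) :
    D g ≤ 4 * δ := by
  have n : (2 : Fin 3) ≠ 1 := by decide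
  have s := hs _ _ n (-g 2 1) g
  have := bg_upper D h1 hs (el n (-g 2 1) * g) (by rw [el_ne _ _ _ (by decide), a])
    (by rw [el_ne _ _ _ (by decide), b]) (by rw [el_same, b, c]; simp)
    (by rw [el_ne _ _ _ (by decide), d]) (by rw [el_same, d]; simp)
  linarith

theorem bg_5 (g : SL3 R) (a : g 0 0 = 1) (b : g 1 0 = 0) (c : g 2 0 = 0) (d : IsUnit (g 2 1)) :
    D g ≤ 5 * δ := by
  have n : (1 : Fin 3) ≠ 2 := by decide
  obtain ⟨u, hu⟩ := d.exists_left_inv
  have s := hs _ _ n ((1 - g 1 1) * u) g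
  have := bg_4 D h1 hs (el n ((1 - g 1 1) * u) * g) (by rw [el_ne _ _ _ (by decide), a])
    (by rw [el_same, b, c]; simp) (by rw [el_ne _ _ _ (by decide), c])
    (by rw [el_same, mul_assoc, hu]; simp)
  linarith

variable [IsLocalRing R]

theorem bg_6 (hδ : 0 ≤ δ) (g : SL3 R) (a : g 0 0 = 1) (b : g 1 0 = 0) (c : g 2 0 = 0) :
    D g ≤ 6 * δ := by
  by_cases d : IsUnit (g 2 1)
  · linarith [bg_5 D h1 hs g a b c d]
  have n : (2 : Fin 3) ≠ 1 := by decide
  have e : IsUnit (g 1 1) := by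
    have h := det3 g
    rw [a, b, c] at h
    have h' : g 1 1 * g 2 2 + g 2 1 * (-g 1 2) = 1 := by linear_combination h
    rcases IsLocalRing.isUnit_or_isUnit_of_add_one h' with h2 | h2
    · exact isUnit_of_mul_isUnit_left h2
    · exact absurd (isUnit_of_mul_isUnit_left h2) d
  have s := hs _ _ n 1 g
  have := bg_5 D h1 hs (el n 1 * g) (by rw [el_ne _ _ _ (by decide), a])
    (by rw [el_ne _ _ _ (by decide), b]) (by rw [el_same, b, c]; simp) (by
      rw [el_same, one_mul]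
      have h' : (g 2 1 + g 1 1) + -g 2 1 = g 1 1 := by ring
      rcases IsLocalRing.isUnit_or_isUnit_of_isUnit_add (h' ▸ e) with h2 | h2
      · exact h2
      · exact absurd ((IsUnit.neg_iff _).1 h2) d)
  linarith

theorem bg_8 (hδ : 0 ≤ δ) (g : SL3 R) (a : g 0 0 = 1) : D g ≤ 8 * δ := by
  have n : (1 : Fin 3) ≠ 0 := by decide
  have m : (2 : Fin 3) ≠ 0 := by decide
  have s1 := hs _ _ n (-g 1 0) g
  have s2 := hs _ _ m (-g 2 0) (el n (-g 1 0) * g)
  have := bg_6 D h1 hs hδ (el m (-g 2 0) * (el n (-g 1 0) * g))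
    (by rw [el_ne _ _ _ (by decide), el_ne _ _ _ (by decide), a])
    (by rw [el_ne _ _ _ (by decide), el_same, a]; simp)
    (by rw [el_same, el_ne _ _ _ (by decide), el_ne _ _ _ (by decide), a]; simp)
  linarith

theorem bg_9 (hδ : 0 ≤ δ) (g : SL3 R) {i : Fin 3} (n : 0 ≠ i) (d : IsUnit (g i 0)) :
    D g ≤ 9 * δ := by
  obtain ⟨u, hu⟩ := d.exists_left_inv
  have s := hs _ _ n ((1 - g 0 0) * u) g
  have := bg_8 D h1 hs hδ (el n ((1 - g 0 0) * u) * g) (by rw [el_same, mul_assoc, hu]; simp)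
  linarith

theorem bgen (hδ : 0 ≤ δ) (g : SL3 R) : D g ≤ 10 * δ := by
  by_cases d : IsUnit (g 1 0)
  · linarith [bg_9 D h1 hs hδ g (by decide) d]
  by_cases d' : IsUnit (g 2 0)
  · linarith [bg_9 D h1 hs hδ g (by decide) d']
  have n : (1 : Fin 3) ≠ 0 := by decide
  have e : IsUnit (g 0 0) := by
    have h := det3 g
    have h' : g 0 0 * (g 1 1 * g 2 2 - g 1 2 * g 2 1) + (g 1 0 * (g 0 2 * g 2 1 - g 0 1 * g 2 2) +
        g 2 0 * (g 0 1 * g 1 2 - g 0 2 * g 1 1)) = 1 := by linear_combination h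
    rcases IsLocalRing.isUnit_or_isUnit_of_add_one h' with h2 | h2
    · exact isUnit_of_mul_isUnit_left h2
    · rcases IsLocalRing.isUnit_or_isUnit_of_isUnit_add h2 with h3 | h3
      · exact absurd (isUnit_of_mul_isUnit_left h3) d
      · exact absurd (isUnit_of_mul_isUnit_left h3) d'
  have s := hs _ _ n 1 g
  have := bg_9 D h1 hs hδ (el n 1 * g) n.symm (by
    rw [el_same, one_mul]
    have h' : (g 1 0 + g 0 0) + -g 1 0 = g 0 0 := by ring
    rcases IsLocalRing.isUnit_or_isUnit_of_isUnit_add (h' ▸ e) with h2 | h2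
    · exact h2
    · exact absurd ((IsUnit.neg_iff _).1 h2) d)
  linarith

end

/-! Steinberg relations. -/

theorem el_add {i j : Fin 3} (h : i ≠ j) (a b : R) : el h (a + b) = el h a * el h b :=
  SpecialLinearGroup.transvection_add h a b

theorem el_zero {i j : Fin 3} (h : i ≠ j) : el h (0 : R) = 1 :=
  SpecialLinearGroup.transvection_coeff_zero h

theorem el_comm {i j k l : Fin 3} (h : i ≠ j) (h' : k ≠ l) (h1 : j ≠ k) (h2 : l ≠ i) (a b : R) :
    el h a * el h' b = el h' b * el h a := by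
  apply Subtype.ext
  change (1 + single i j a) * (1 + single k l b) = (1 + single k l b) * (1 + single i j a)
  simp only [mul_add, add_mul,
    mul_one, one_mul, single_mul_single_of_ne _ _ _ _ h1, single_mul_single_of_ne _ _ _ _ h2]
  abel

theorem el_st {i j k : Fin 3} (hij : i ≠ j) (hjk : j ≠ k) (hik : i ≠ k) (t b : R) :
    el hij t * el hjk b = el hik (t * b) * el hjk b * el hij t := by
  apply Subtype.ext
  change (1 + single i j t) * (1 + single j k b) =
    (1 + single i k (t * b)) * (1 + single j k b) * (1 + single i j t)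
  simp only [mul_add, add_mul,
    mul_one, one_mul, single_mul_single_same, single_mul_single_of_ne _ _ _ _ hjk.symm,
    single_mul_single_of_ne _ _ _ _ hik.symm, zero_mul]
  abel

end Vale.Agent.P330.Exp
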