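import Vale.Agent.P330.Exp.Kaz

/-! P330: the spectral gap for functions on the group, and powering. -/

open Finset
open scoped BigOperators

namespace Vale.Agent.P330.Exp

/-- Spectral gap of a graph given by port maps. -/
def Gap {J X : Type} [Fintype J] [Fintype X] (π : J → X → X) (lam : ℝ) : Prop :=
  ∀ f : X → ℝ, ∑ x, f x = 0 → ∑ x, (𝔼 p, f (π p x)) ^ 2 ≤ lam ^ 2 * ∑ x, f x ^ 2

section
variable {X : Type} [Fintype X]

/-- Composition with a permutation as an isometry. -/
noncomputable def prm (σ : X ≃ X) : EuclideanSpace ℝ X →ₗᵢ[ℝ] EuclideanSpace ℝ X where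
  toFun f := WithLp.toLp 2 fun x => f (σ x)
  map_add' _ _ := rfl
  map_smul' _ _ := rfl
  norm_map' f := by
    simp only [EuclideanSpace.norm_eq]
    exact congrArg _ (Equiv.sum_comp σ fun x => ‖f x‖ ^ 2)

theorem prm_apply (σ : X ≃ X) (f : EuclideanSpace ℝ X) (x : X) : prm σ f x = f (σ x) := rfl

theorem gap_of_norm {J : Type} [Fintype J] [Nonempty J] (σ : J → X ≃ X) {c : ℝ}
    (h : ∀ v : EuclideanSpace ℝ X, ∑ x, v x = 0 →
      ‖∑ p, prm (σ p) v‖ ≤ (Fintype.card J - c) * ‖v‖) :
    Gap (fun p x => σ p x) (1 - c / Fintype.card J) := by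
  intro f hf
  have hc : (0 : ℝ) < Fintype.card J := Nat.cast_pos.2 Fintype.card_pos
  have h1 := pow_le_pow_left₀ (norm_nonneg _) (h (WithLp.toLp 2 f) hf) 2
  rw [mul_pow, EuclideanSpace.real_norm_sq_eq, EuclideanSpace.real_norm_sq_eq] at h1
  have h2 : ∀ x, (𝔼 p, f (σ p x)) ^ 2 =
      ((∑ p, prm (σ p) (WithLp.toLp 2 f)) x) ^ 2 / (Fintype.card J : ℝ) ^ 2 := by
    intro x
    rw [Fintype.expect_eq_sum_div_card, div_pow, WithLp.ofLp_sum, Finset.sum_apply]
    rfl
  simp only [h2]
  rw [← sum_div, div_le_iff₀ (by positivity)]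
  refine h1.trans (le_of_eq ?_)
  field_simp

theorem Gap.mono {J : Type} [Fintype J] {π : J → X → X} {l l' : ℝ} (h : Gap π l) (h0 : 0 ≤ l)
    (h1 : l ≤ l') : Gap π l' := fun f hf =>
  (h f hf).trans (mul_le_mul_of_nonneg_right (pow_le_pow_left₀ h0 h1 2)
    (sum_nonneg fun _ _ => sq_nonneg _))

theorem Gap.comp {J K : Type} [Fintype J] [Fintype K] {π : J → X → X} {π' : K → X → X} {l l' : ℝ}
    (h : Gap π l) (h' : Gap π' l') (hb : ∀ p, Function.Bijective (π p)) :
    Gap (fun (q : J × K) x => π q.1 (π' q.2 x)) (l * l') := by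
  intro f hf
  have h1 : ∑ x, (𝔼 p, f (π p x)) = 0 := by
    rw [← expect_sum_comm]
    refine expect_eq_zero fun p _ => ?_
    rw [← hf]
    exact (hb p).sum_comp f
  have h2 := h' _ h1
  have h3 : ∀ x, (𝔼 q : J × K, f (π q.1 (π' q.2 x))) = 𝔼 k, 𝔼 p, f (π p (π' k x)) := by
    intro x
    rw [← univ_product_univ, expect_product, expect_comm]
  simp only [h3]
  refine h2.trans ?_
  rw [mul_pow, mul_comm (l ^ 2), mul_assoc]
  exact mul_le_mul_of_nonneg_left (h f hf) (sq_nonneg _)

theorem Gap.reindex {J K : Type} [Fintype J] [Fintype K] {π : J → X → X} {π' : K → X → X} {l : ℝ}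
    (h : Gap π l) (e : K ≃ J) (he : ∀ k x, π' k x = π (e k) x) : Gap π' l := by
  intro f hf
  have h1 : ∀ x, (𝔼 k, f (π' k x)) = 𝔼 p, f (π p x) := fun x =>
    Fintype.expect_equiv e _ _ fun k => by rw [he]
  simp only [h1]
  exact h f hf

end

section
variable {G J : Type} [Group G] [Fintype G] [Fintype J]

/-- The value of a word. -/
def word (s : J → G) {k : ℕ} (w : Fin k → J) : G := (List.ofFn fun i => s (w i)).prod

omit [Fintype G] [Fintype J] in
theorem word_cons (s : J → G) {k : ℕ} (p : J) (w : Fin k → J) :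
    word s (Fin.cons p w : Fin (k + 1) → J) = s p * word s w := by
  simp [word, List.ofFn_succ]

omit [Group G] in
theorem gap_zero (π : (Fin 0 → J) → G → G) (h : ∀ w x, π w x = x) : Gap π 1 := by
  intro f _
  simp [h]

theorem Gap.powR {s : J → G} {l : ℝ} (h : Gap (fun p x => x * s p) l) (k : ℕ) :
    Gap (fun (w : Fin k → J) x => x * word s w) (l ^ k) := by
  induction k with
  | zero => rw [pow_zero]; exact gap_zero _ fun w x => by simp [word]
  | succ k ih =>
    rw [pow_succ]
    refine (ih.comp h fun w => Group.mulRight_bijective _).reindex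
      ((Fin.consEquiv fun _ => J).symm.trans (Equiv.prodComm _ _)) fun w x => ?_
    obtain ⟨⟨p, u⟩, rfl⟩ := (Fin.consEquiv fun _ => J).surjective w
    simp only [Equiv.trans_apply, Equiv.symm_apply_apply, Equiv.prodComm_apply, Prod.swap]
    exact (congrArg _ (word_cons s p u)).trans (mul_assoc _ _ _).symm

theorem Gap.powL {s : J → G} {l : ℝ} (h : Gap (fun p x => s p * x) l) (k : ℕ) :
    Gap (fun (w : Fin k → J) x => word s w * x) (l ^ k) := by
  induction k with
  | zero => rw [pow_zero]; exact gap_zero _ fun w x => by simp [word]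
  | succ k ih =>
    rw [pow_succ']
    refine (h.comp ih fun w => Group.mulLeft_bijective _).reindex
      (Fin.consEquiv fun _ => J).symm fun w x => ?_
    obtain ⟨⟨p, u⟩, rfl⟩ := (Fin.consEquiv fun _ => J).surjective w
    simp only [Equiv.symm_apply_apply]
    exact (congrArg (· * x) (word_cons s p u)).trans (mul_assoc _ _ _)

/-- A gap for right multiplication gives a gap for left multiplication by the inverses. -/
theorem Gap.left {s : J → G} {l : ℝ} (h : Gap (fun p x => x * s p) l) :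
    Gap (fun p x => (s p)⁻¹ * x) l := by
  intro f hf
  have h1 := h (fun x => f x⁻¹) ((Equiv.sum_comp (Equiv.inv G) f).trans hf)
  rw [← Equiv.sum_comp (Equiv.inv G) fun x => (𝔼 p, f ((s p)⁻¹ * x)) ^ 2,
    ← Equiv.sum_comp (Equiv.inv G) fun x => f x ^ 2]
  simpa only [mul_inv_rev, Equiv.inv_apply] using h1

theorem rep_right : Rep fun g : G => prm (Equiv.mulRight g) :=
  ⟨fun v => by ext x; simp [prm_apply], fun g h v => by ext x; simp [prm_apply, mul_assoc]⟩

theorem sum_right {v : EuclideanSpace ℝ G} (h : ∑ x, v x = 0) :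
    ∑ g : G, prm (Equiv.mulRight g) v = 0 := by
  ext x
  rw [WithLp.ofLp_sum, Finset.sum_apply]
  exact (Equiv.sum_comp (Equiv.mulLeft x) fun g => v g).trans h

end

variable {R : Type} [CommRing R] [Fintype R] {y : R}

theorem gapR (hR : Good R y) [Fintype (SL3 R)] {J : Type} [Fintype J] (s : J → SL3 R) (j₀ : J)
    (h1 : s j₀ = 1) (hs : ∀ (i j : Fin 3) (h : i ≠ j), (∃ p, s p = el h 1) ∧ ∃ p, s p = el h y) :
    Gap (fun p x => x * s p) (1 - 1 / 115600 / Fintype.card J) :=
  have : Nonempty J := ⟨j₀⟩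
  gap_of_norm (fun p => Equiv.mulRight (s p)) fun v hv =>
    sum_le hR rep_right s j₀ h1 hs v (sum_right hv)

omit [Fintype R] in
theorem el_inv (hR : Good R y) {i j : Fin 3} (h : i ≠ j) (a : R) : (el h a)⁻¹ = el h a := by
  refine inv_eq_of_mul_eq_one_left ?_
  rw [← el_add, ← two_mul, hR.two, zero_mul, el_zero]

theorem gapL (hR : Good R y) [Fintype (SL3 R)] {J : Type} [Fintype J] (s : J → SL3 R) (j₀ : J)
    (h1 : s j₀ = 1) (hs : ∀ (i j : Fin 3) (h : i ≠ j), (∃ p, s p = el h 1) ∧ ∃ p, s p = el h y) :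
    Gap (fun p x => s p * x) (1 - 1 / 115600 / Fintype.card J) := by
  have h := (gapR hR (fun p => (s p)⁻¹) j₀ (by rw [h1, inv_one]) fun i j h => by
    obtain ⟨⟨p, hp⟩, q, hq⟩ := hs i j h
    exact ⟨⟨p, by rw [hp, el_inv hR]⟩, q, by rw [hq, el_inv hR]⟩).left
  simpa only [inv_inv] using h

end Vale.Agent.P330.Exp
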