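import Vale.Agent.P330.Exp.RelT
import Vale.Agent.P330.Exp.BGen

/-! P330: uniform spectral gap for `SL₃` over finite local quotients of `F₂[y]`. -/

open Finset

namespace Vale.Agent.P330.Exp

theorem sep_of_two {W : Type} [AddCommGroup W] (h : ∀ x : W, 2 • x = 0) (a : W) (ha : a ≠ 0) :
    ∃ l : Ch W, l a ≠ 0 := by
  let : Module (ZMod 2) W := AddCommGroup.zmodModule h
  have : Fact (Nat.Prime 2) := ⟨Nat.prime_two⟩
  by_contra hn
  refine ha ((Module.forall_dual_apply_eq_zero_iff (ZMod 2) a).1 fun φ => ?_)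
  by_contra h1
  exact hn ⟨φ.toAddMonoidHom, h1⟩

/-- Finite local rings of characteristic two, additively generated by the powers of `y`. -/
structure Good (R : Type) [CommRing R] (y : R) : Prop where
  loc : IsLocalRing R
  two : (2 : R) = 0
  gen : ∀ l : R →+ ZMod 2, (∀ n, l (y ^ n) = 0) → l = 0

variable {V G : Type} [NormedAddCommGroup V] [InnerProductSpace ℝ V] [Group G]

/-- Orthogonal representations. -/
structure Rep (ρ : G → V →ₗᵢ[ℝ] V) : Prop where
  one : ∀ v, ρ 1 v = v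
  mul : ∀ g h v, ρ (g * h) v = ρ g (ρ h v)

variable {R : Type} [CommRing R] [Fintype R] {y : R}

theorem third : ∀ i k : Fin 3, i ≠ k → ∃ j, i ≠ j ∧ j ≠ k := by decide

theorem root_le (hR : Good R y) {ρ : SL3 R → V →ₗᵢ[ℝ] V} (hρ : Rep ρ) (v : V) {e : ℝ}
    (he : ∀ (i j : Fin 3) (h : i ≠ j), ‖ρ (el h 1) v - v‖ ≤ e ∧ ‖ρ (el h y) v - v‖ ≤ e)
    {i k : Fin 3} (hik : i ≠ k) (a : R) : ‖ρ (el hik a) v - v‖ ≤ 17 * e := by
  obtain ⟨j, hij, hjk⟩ := third i k hik
  have hA : Act fun w : R × R => ρ (el hik w.1 * el hjk w.2) := by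
    refine ⟨fun v => ?_, fun a b v => ?_, sep_of_two fun x => ?_⟩
    · rw [Prod.fst_zero, Prod.snd_zero, el_zero, el_zero, one_mul, hρ.one]
    · rw [← hρ.mul, Prod.fst_add, Prod.snd_add, el_add, el_add, mul_assoc, mul_assoc,
        ← mul_assoc (el hik b.1), el_comm hik hjk hjk.symm hik.symm b.1 a.2, mul_assoc]
    · ext <;> simp [hR.two]
  have h := relT hA y hR.gen (fun t => ρ (el hij t)) (fun t => ρ (el hij.symm t))
    (fun t w v => by
      change _ = ρ (el hik (w.1 + t * w.2) * el hjk w.2) _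
      rw [← hρ.mul, ← hρ.mul, ← mul_assoc, el_comm hij hik hij.symm hik.symm, mul_assoc,
        el_st hij hjk hik, el_add]
      simp only [mul_assoc])
    (fun t w v => by
      change _ = ρ (el hik w.1 * el hjk (w.2 + t * w.1)) _
      rw [← hρ.mul, ← hρ.mul, ← mul_assoc, el_st hij.symm hik hjk, mul_assoc,
        el_comm hij.symm hjk hij hjk.symm, el_comm hjk hik hik.symm hjk.symm, add_comm, el_add]
      simp only [mul_assoc])
    v (he _ _ hij).1 (he _ _ hij).2 (he _ _ hij.symm).1 (he _ _ hij.symm).2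
    (by rw [el_zero, mul_one]; exact (he _ _ hik).1)
    (by rw [el_zero, one_mul]; exact (he _ _ hjk).1) (a, 0)
  rwa [el_zero, mul_one] at h

theorem kazhdan (hR : Good R y) {ρ : SL3 R → V →ₗᵢ[ℝ] V} (hρ : Rep ρ) (v : V) {e : ℝ}
    (he : ∀ (i j : Fin 3) (h : i ≠ j), ‖ρ (el h 1) v - v‖ ≤ e ∧ ‖ρ (el h y) v - v‖ ≤ e)
    (g : SL3 R) : ‖ρ g v - v‖ ≤ 170 * e := by
  have := hR.loc
  have h0 : 0 ≤ e := (norm_nonneg _).trans (he 0 1 (by decide)).1
  have h := bgen (fun g => ‖ρ g v - v‖) (δ := 17 * e) (by rw [hρ.one, sub_self, norm_zero])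
    (fun i j h a g => by
      have h1 := root_le hR hρ v he h a
      have h2 : ρ (el h a) (ρ g v - v) = (ρ (el h a * g) v - v) - (ρ (el h a) v - v) := by
        rw [map_sub, hρ.mul]; abel
      rw [← (ρ (el h a)).norm_map, h2]
      exact (norm_sub_le _ _).trans (by linarith)) (by positivity) g
  linarith

omit [Fintype R] in
theorem norm_le_of_disp [Fintype G] {ρ : G → V →ₗᵢ[ℝ] V} {v : V} (h0 : ∑ g, ρ g v = 0) {δ : ℝ}
    (h : ∀ g, ‖ρ g v - v‖ ≤ δ) : ‖v‖ ≤ δ := by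
  have hc : (0 : ℝ) < Fintype.card G := Nat.cast_pos.2 Fintype.card_pos
  have h1 : ∑ g, (ρ g v - v) = -((Fintype.card G : ℝ) • v) := by
    rw [sum_sub_distrib, h0, sum_const, card_univ, zero_sub, Nat.cast_smul_eq_nsmul]
  have h2 := (norm_sum_le univ fun g => ρ g v - v).trans (sum_le_sum fun g _ => h g)
  rw [h1, norm_neg, norm_smul, Real.norm_of_nonneg hc.le, sum_const, card_univ,
    nsmul_eq_mul] at h2
  exact le_of_mul_le_mul_left h2 hc

/-- The averaging operator of a family containing the identity and the generators. -/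
theorem sum_le (hR : Good R y) [Fintype (SL3 R)] {ρ : SL3 R → V →ₗᵢ[ℝ] V} (hρ : Rep ρ)
    {J : Type} [Fintype J] (s : J → SL3 R) (j₀ : J) (h1 : s j₀ = 1)
    (hs : ∀ (i j : Fin 3) (h : i ≠ j), (∃ p, s p = el h 1) ∧ ∃ p, s p = el h y)
    (v : V) (h0 : ∑ g, ρ g v = 0) :
    ‖∑ p, ρ (s p) v‖ ≤ (Fintype.card J - 1 / 115600) * ‖v‖ := by
  classical
  have : Nonempty J := ⟨j₀⟩
  obtain ⟨m, -, hm⟩ := exists_max_image univ (fun p => ‖ρ (s p) v - v‖) univ_nonempty
  have k1 : ‖v‖ ≤ 170 * ‖ρ (s m) v - v‖ :=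
    norm_le_of_disp h0 (kazhdan hR hρ v fun i j h => by
      obtain ⟨⟨p, hp⟩, q, hq⟩ := hs i j h
      exact ⟨hp ▸ hm p (mem_univ _), hq ▸ hm q (mem_univ _)⟩)
  by_cases hj : m = j₀
  · rw [hj, h1, hρ.one, sub_self, norm_zero, mul_zero] at k1
    have : v = 0 := norm_le_zero_iff.1 k1
    simp [this]
  have k2 : ‖ρ (s m) v + v‖ ≤ (2 - 1 / 115600) * ‖v‖ := by
    have p := parallelogram_law_with_norm ℝ (ρ (s m) v) v
    rw [(ρ (s m)).norm_map] at p
    refine (abs_le_of_sq_le_sq' ?_ (by positivity)).2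
    have := norm_nonneg v
    have k3 : ‖v‖ * ‖v‖ ≤ (170 * ‖ρ (s m) v - v‖) * (170 * ‖ρ (s m) v - v‖) :=
      mul_self_le_mul_self this k1
    nlinarith [mul_self_nonneg ‖v‖]
  have hm' : m ∈ univ.erase j₀ := mem_erase.2 ⟨hj, mem_univ _⟩
  rw [← add_sum_erase _ _ (mem_univ j₀), ← add_sum_erase _ _ hm', h1, hρ.one, ← add_assoc,
    add_comm v]
  have k4 : ‖∑ p ∈ (univ.erase j₀).erase m, ρ (s p) v‖ ≤ (Fintype.card J - 2) * ‖v‖ := by
    refine (norm_sum_le _ _).trans (le_of_eq ?_)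
    have c1 := card_erase_add_one hm'
    have c2 := card_erase_add_one (mem_univ j₀)
    have c3 : (#((univ.erase j₀).erase m) : ℝ) = Fintype.card J - 2 := by
      rw [← card_univ, ← c2, ← c1]
      push_cast
      ring
    simp only [LinearIsometry.norm_map, sum_const, nsmul_eq_mul, c3]
  refine (norm_add_le _ _).trans ?_
  linarith

end Vale.Agent.P330.Exp
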