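import Vale.Agent.P330.Exp.Spec

/-! P330: relative property (T) for the plane over a quotient of `F₂[y]`. -/

open Finset

namespace Vale.Agent.P330.Exp

/-- The first nonzero pair of the sequences `p`, `q` is `(c, d)`. -/
def Ty (c d : ZMod 2) (p q : ℕ → ZMod 2) : Prop :=
  ∃ k, (∀ i < k, p i = 0 ∧ q i = 0) ∧ p k = c ∧ q k = d

variable {p q : ℕ → ZMod 2} {c d c' d' : ZMod 2}

theorem Ty.swap (h : Ty c d p q) : Ty d c q p :=
  let ⟨k, h1, h2, h3⟩ := h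
  ⟨k, fun i hi => (h1 i hi).symm, h3, h2⟩

theorem Ty.uniq (h : Ty c d p q) (h' : Ty c' d' p q) (h0 : c ≠ 0 ∨ d ≠ 0) (h0' : c' ≠ 0 ∨ d' ≠ 0) :
    c = c' ∧ d = d' := by
  obtain ⟨k, h1, h2, h3⟩ := h
  obtain ⟨k', h1', h2', h3'⟩ := h'
  rcases lt_trichotomy k k' with hk | rfl | hk
  · have := h1' k hk
    rw [h2, h3] at this
    tauto
  · exact ⟨h2.symm.trans h2', h3.symm.trans h3'⟩
  · have := h1 k' hk
    rw [h2', h3'] at this
    tauto

theorem ty_cover (h : ∃ n, ¬ (p n = 0 ∧ q n = 0)) : Ty 1 0 p q ∨ Ty 1 1 p q ∨ Ty 0 1 p q := by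
  classical
  have h1 := Nat.find_spec h
  have h2 : ∀ i < Nat.find h, p i = 0 ∧ q i = 0 := fun i hi => not_not.1 (Nat.find_min h hi)
  rcases z2 (p (Nat.find h)) with h3 | h3 <;> rcases z2 (q (Nat.find h)) with h4 | h4
  · exact absurd ⟨h3, h4⟩ h1
  · exact Or.inr (Or.inr ⟨_, h2, h3, h4⟩)
  · exact Or.inl ⟨_, h2, h3, h4⟩
  · exact Or.inr (Or.inl ⟨_, h2, h3, h4⟩)

theorem Ty.one (h : Ty 1 0 p q) : Ty 1 1 p fun n => p n + q n := by
  obtain ⟨k, h1, h2, h3⟩ := h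
  exact ⟨k, fun i hi => ⟨(h1 i hi).1, by simp only [(h1 i hi).1, (h1 i hi).2, add_zero]⟩, h2,
    by simp only [h2, h3, add_zero]⟩

theorem Ty.shift (h : Ty 1 d p q) (h0 : p 0 = 0) : Ty 0 1 p fun n => p (n + 1) + q n := by
  obtain ⟨k, h1, h2, -⟩ := h
  cases k with
  | zero => exact absurd (h0.symm.trans h2) (by decide)
  | succ j =>
    refine ⟨j, fun i hi => ⟨(h1 i (by omega)).1, ?_⟩, (h1 j (by omega)).1, ?_⟩
    · simp only [(h1 (i + 1) (by omega)).1, (h1 i (by omega)).2, add_zero]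
    · simp only [h2, (h1 j (by omega)).2, add_zero]

theorem numeric {a b c x z e : ℝ} (ha : 0 ≤ a) (hb : 0 ≤ b) (hc : 0 ≤ c) (hx : 0 ≤ x) (hz : 0 ≤ z)
    (he : 0 ≤ e) (h1 : a ^ 2 + b ^ 2 ≤ x ^ 2 + e ^ 2 / 2) (h2 : c ^ 2 + b ^ 2 ≤ z ^ 2 + e ^ 2 / 2)
    (h3 : x ≤ c + e) (h4 : z ≤ a + e) (h5 : a ≤ b + e) (h6 : c ≤ b + e) :
    a ^ 2 + b ^ 2 + c ^ 2 ≤ 66 * e ^ 2 := by
  have k1 : x ^ 2 ≤ (c + e) ^ 2 := pow_le_pow_left₀ hx h3 2
  have k2 : z ^ 2 ≤ (a + e) ^ 2 := pow_le_pow_left₀ hz h4 2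
  have k3 : 2 * b ^ 2 ≤ 4 * e * b + 7 * e ^ 2 := by nlinarith
  have k4 : b ≤ 4 * e := by
    by_contra hn
    have := not_le.1 hn
    nlinarith
  nlinarith

variable {V R : Type} [NormedAddCommGroup V] [InnerProductSpace ℝ V] [CommRing R] [Fintype R]

/-- `(a, b) ↦ (a + t b, b)`. -/
def th (t : R) : R × R ≃+ R × R where
  toFun w := (w.1 + t * w.2, w.2)
  invFun w := (w.1 - t * w.2, w.2)
  left_inv w := by simp
  right_inv w := by simp
  map_add' v w := by ext <;> simp; ring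

/-- `(a, b) ↦ (a, b + t a)`. -/
def th' (t : R) : R × R ≃+ R × R where
  toFun w := (w.1, w.2 + t * w.1)
  invFun w := (w.1, w.2 - t * w.1)
  left_inv w := by simp
  right_inv w := by simp
  map_add' v w := by ext <;> simp; ring

omit [Fintype R] in
theorem th_fst (ψ : Ch (R × R)) (t a : R) : ψ.comp (th t).toAddMonoidHom (a, 0) = ψ (a, 0) := by
  simp [th]

omit [Fintype R] in
theorem th_snd (ψ : Ch (R × R)) (t a : R) :
    ψ.comp (th t).toAddMonoidHom (0, a) = ψ (t * a, 0) + ψ (0, a) := by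
  rw [← map_add]; simp [th]

omit [Fintype R] in
theorem th'_snd (ψ : Ch (R × R)) (t a : R) : ψ.comp (th' t).toAddMonoidHom (0, a) = ψ (0, a) := by
  simp [th']

omit [Fintype R] in
theorem th'_fst (ψ : Ch (R × R)) (t a : R) :
    ψ.comp (th' t).toAddMonoidHom (a, 0) = ψ (0, t * a) + ψ (a, 0) := by
  rw [← map_add]; simp [th']

theorem relT {U : R × R → V →ₗᵢ[ℝ] V} (h : Act U) (y : R)
    (hy : ∀ l : R →+ ZMod 2, (∀ n, l (y ^ n) = 0) → l = 0) (g g' : R → V →ₗᵢ[ℝ] V)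
    (hg : ∀ t a v, g t (U a v) = U (th t a) (g t v))
    (hg' : ∀ t a v, g' t (U a v) = U (th' t a) (g' t v)) (v : V) {e : ℝ}
    (e1 : ‖g 1 v - v‖ ≤ e) (e2 : ‖g y v - v‖ ≤ e) (e3 : ‖g' 1 v - v‖ ≤ e) (e4 : ‖g' y v - v‖ ≤ e)
    (e5 : ‖U (1, 0) v - v‖ ≤ e) (e6 : ‖U (0, 1) v - v‖ ≤ e) (w : R × R) :
    ‖U w v - v‖ ≤ 17 * e := by
  have he : 0 ≤ e := (norm_nonneg _).trans e1
  let p : Ch (R × R) → ℕ → ZMod 2 := fun ψ n => ψ (y ^ n, 0)
  let q : Ch (R × R) → ℕ → ZMod 2 := fun ψ n => ψ (0, y ^ n)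
  let A : Ch (R × R) → Prop := fun ψ => Ty 1 0 (p ψ) (q ψ)
  let B : Ch (R × R) → Prop := fun ψ => Ty 1 1 (p ψ) (q ψ)
  let C : Ch (R × R) → Prop := fun ψ => Ty 0 1 (p ψ) (q ψ)
  let X : Ch (R × R) → Prop := fun ψ => (A ψ ∨ B ψ) ∧ p ψ 0 = 0
  let Z : Ch (R × R) → Prop := fun ψ => (C ψ ∨ B ψ) ∧ q ψ 0 = 0
  have pth : ∀ ψ t, p (ψ.comp (th t).toAddMonoidHom) = p ψ := fun ψ t =>
    funext fun n => th_fst ψ t _
  have qth' : ∀ ψ t, q (ψ.comp (th' t).toAddMonoidHom) = q ψ := fun ψ t =>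
    funext fun n => th'_snd ψ t _
  have q1 : ∀ ψ, q (ψ.comp (th 1).toAddMonoidHom) = fun n => p ψ n + q ψ n := fun ψ =>
    funext fun n => (th_snd ψ 1 _).trans (by rw [one_mul])
  have qy : ∀ ψ, q (ψ.comp (th y).toAddMonoidHom) = fun n => p ψ (n + 1) + q ψ n := fun ψ =>
    funext fun n => (th_snd ψ y _).trans (by rw [← pow_succ'])
  have p1 : ∀ ψ, p (ψ.comp (th' 1).toAddMonoidHom) = fun n => q ψ n + p ψ n := fun ψ =>
    funext fun n => (th'_fst ψ 1 _).trans (by rw [one_mul])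
  have py : ∀ ψ, p (ψ.comp (th' y).toAddMonoidHom) = fun n => q ψ (n + 1) + p ψ n := fun ψ =>
    funext fun n => (th'_fst ψ y _).trans (by rw [← pow_succ'])
  have m1 := move h (g 1) (th 1) (hg 1) (B := A) (B' := B) (fun ψ hψ => by
    change Ty 1 1 (p _) (q _)
    rw [pth, q1]; exact hψ.one) v
  have m2 := move h (g' 1) (th' 1) (hg' 1) (B := C) (B' := B) (fun ψ hψ => by
    change Ty 1 1 (p _) (q _)
    rw [qth', p1]; exact (Ty.swap hψ).one.swap) v
  have m3 := move h (g y) (th y) (hg y) (B := X) (B' := C) (fun ψ hψ => by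
    change Ty 0 1 (p _) (q _)
    rw [pth, qy]
    rcases hψ.1 with h1 | h1 <;> exact Ty.shift h1 hψ.2) v
  have m4 := move h (g' y) (th' y) (hg' y) (B := Z) (B' := A) (fun ψ hψ => by
    change Ty 1 0 (p _) (q _)
    rw [qth', py]
    rcases hψ.1 with h1 | h1 <;> exact (Ty.shift (Ty.swap h1) hψ.2).swap) v
  have d1 : 4 * S U (fun χ => χ (1, 0) ≠ 0) v ≤ e ^ 2 :=
    (disp h _ v).symm.le.trans (pow_le_pow_left₀ (norm_nonneg _) e5 2)
  have d2 : 4 * S U (fun χ => χ (0, 1) ≠ 0) v ≤ e ^ 2 :=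
    (disp h _ v).symm.le.trans (pow_le_pow_left₀ (norm_nonneg _) e6 2)
  have s1 : S U A v + S U B v ≤ S U X v + S U (fun χ => χ (1, 0) ≠ 0) v := by
    simp only [S, ← sum_add_distrib]
    refine sum_le_sum fun ψ _ => ?_
    have u : ¬ (A ψ ∧ B ψ) := fun hh =>
      absurd (Ty.uniq hh.1 hh.2 (by decide) (by decide)).2 (by decide)
    have u' : p ψ 0 = ψ (1, 0) := by simp only [p, pow_zero]
    have := sq_nonneg ‖P U ψ v‖
    by_cases a1 : A ψ <;> by_cases a2 : B ψ <;> by_cases a3 : ψ (1, 0) = 0 <;>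
      simp only [X, u', a1, a2, a3, ne_eq, not_true, not_false_iff, true_or, or_true, or_self,
        and_self, and_false, false_and, if_true, if_false] at u ⊢ <;> linarith
  have s2 : S U C v + S U B v ≤ S U Z v + S U (fun χ => χ (0, 1) ≠ 0) v := by
    simp only [S, ← sum_add_distrib]
    refine sum_le_sum fun ψ _ => ?_
    have u : ¬ (C ψ ∧ B ψ) := fun hh =>
      absurd (Ty.uniq hh.1 hh.2 (by decide) (by decide)).1 (by decide)
    have u' : q ψ 0 = ψ (0, 1) := by simp only [q, pow_zero]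
    have := sq_nonneg ‖P U ψ v‖
    by_cases a1 : C ψ <;> by_cases a2 : B ψ <;> by_cases a3 : ψ (0, 1) = 0 <;>
      simp only [Z, u', a1, a2, a3, ne_eq, not_true, not_false_iff, true_or, or_true, or_self,
        and_self, and_false, false_and, if_true, if_false] at u ⊢ <;> linarith
  have s3 : S U (fun χ => χ w ≠ 0) v ≤ S U A v + S U B v + S U C v := by
    simp only [S, ← sum_add_distrib]
    refine sum_le_sum fun ψ _ => ?_
    have := sq_nonneg ‖P U ψ v‖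
    by_cases a0 : ψ w = 0
    · rw [if_neg (not_not.2 a0)]
      split_ifs <;> linarith
    · have u : A ψ ∨ B ψ ∨ C ψ := by
        refine ty_cover ?_
        by_contra hn
        have hn' : ∀ n, p ψ n = 0 ∧ q ψ n = 0 := fun n => by
          by_contra h1
          exact hn ⟨n, h1⟩
        have k1 := hy (ψ.comp (AddMonoidHom.inl R R)) fun n => (hn' n).1
        have k2 := hy (ψ.comp (AddMonoidHom.inr R R)) fun n => (hn' n).2
        have k3 : ψ (w.1, 0) = 0 := DFunLike.congr_fun k1 w.1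
        have k4 : ψ (0, w.2) = 0 := DFunLike.congr_fun k2 w.2
        apply a0
        have : w = (w.1, 0) + (0, w.2) := by simp
        rw [this, map_add, k3, k4, add_zero]
      rw [if_pos a0]
      split_ifs <;> first | linarith | tauto
  have sq : ∀ D, √(S U D v) ^ 2 = S U D v := fun D => Real.sq_sqrt (S_nonneg D v)
  have n := numeric (Real.sqrt_nonneg (S U A v)) (Real.sqrt_nonneg (S U B v))
    (Real.sqrt_nonneg (S U C v)) (Real.sqrt_nonneg (S U X v)) (Real.sqrt_nonneg (S U Z v)) he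
    (by rw [sq, sq, sq]; nlinarith) (by rw [sq, sq, sq]; nlinarith) (by linarith) (by linarith)
    (by linarith) (by linarith)
  rw [sq, sq, sq] at n
  refine abs_le_of_sq_le_sq' ?_ (by positivity) |>.2
  rw [disp h]
  nlinarith

end Vale.Agent.P330.Exp
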