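import Vale.Agent.P330.Exp.Gap

/-! P330: the rings `F₂[y] / y ^ r` and their coefficient lists. -/

open Finset Polynomial

namespace Vale.Agent.P330.Exp

/-- The ring `F₂[y] / y ^ r`. -/
abbrev RR (r : ℕ) : Type := AdjoinRoot ((X : (ZMod 2)[X]) ^ r)

/-- The class of a polynomial. -/
noncomputable abbrev mk (r : ℕ) : (ZMod 2)[X] →+* RR r := AdjoinRoot.mk _

/-- The generator. -/
noncomputable def yy (r : ℕ) : RR r := mk r X

variable {r : ℕ}

theorem mk_eq_iff {f g : (ZMod 2)[X]} : mk r f = mk r g ↔ ∀ i < r, f.coeff i = g.coeff i := by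
  simp only [AdjoinRoot.mk_eq_mk, X_pow_dvd_iff, coeff_sub, sub_eq_zero]

/-- The coefficients of an element. -/
noncomputable def co (a : RR r) (i : ℕ) : ZMod 2 :=
  if i < r then (AdjoinRoot.mk_surjective a).choose.coeff i else 0

theorem co_mk (f : (ZMod 2)[X]) {i : ℕ} (hi : i < r) : co (mk r f) i = f.coeff i := by
  rw [co, if_pos hi]
  exact mk_eq_iff.1 (AdjoinRoot.mk_surjective (mk r f)).choose_spec i hi

theorem co_ge (a : RR r) {i : ℕ} (hi : r ≤ i) : co a i = 0 := if_neg (not_lt.2 hi)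

theorem co_ext {a b : RR r} (h : ∀ i < r, co a i = co b i) : a = b := by
  obtain ⟨f, rfl⟩ := AdjoinRoot.mk_surjective a
  obtain ⟨g, rfl⟩ := AdjoinRoot.mk_surjective b
  exact mk_eq_iff.2 fun i hi => by rw [← co_mk f hi, ← co_mk g hi]; exact h i hi

theorem co_add (a b : RR r) (i : ℕ) : co (a + b) i = co a i + co b i := by
  obtain ⟨f, rfl⟩ := AdjoinRoot.mk_surjective a
  obtain ⟨g, rfl⟩ := AdjoinRoot.mk_surjective b
  by_cases hi : i < r
  · rw [← map_add, co_mk _ hi, co_mk _ hi, co_mk _ hi, coeff_add]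
  · simp only [co_ge _ (not_lt.1 hi), add_zero]

theorem co_zero (i : ℕ) : co (0 : RR r) i = 0 := by
  by_cases hi : i < r
  · rw [← map_zero (mk r), co_mk _ hi, coeff_zero]
  · exact co_ge _ (not_lt.1 hi)

theorem co_mul (a b : RR r) {k : ℕ} (hk : k < r) :
    co (a * b) k = ∑ i ∈ range (k + 1), co a i * co b (k - i) := by
  obtain ⟨f, rfl⟩ := AdjoinRoot.mk_surjective a
  obtain ⟨g, rfl⟩ := AdjoinRoot.mk_surjective b
  rw [← map_mul, co_mk _ hk, coeff_mul, Nat.sum_antidiagonal_eq_sum_range_succ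
    (fun i j => f.coeff i * g.coeff j)]
  refine sum_congr rfl fun i hi => ?_
  have := mem_range.1 hi
  rw [co_mk _ (by omega), co_mk _ (by omega)]

theorem co_pow (n : ℕ) {i : ℕ} (hi : i < r) : co (yy r ^ n) i = if i = n then 1 else 0 := by
  rw [yy, ← map_pow, co_mk _ hi, coeff_X_pow]

theorem co_one {i : ℕ} (hi : i < r) : co (1 : RR r) i = if i = 0 then 1 else 0 := by
  rw [← pow_zero (yy r), co_pow 0 hi]

theorem yy_pow : yy r ^ r = 0 := by
  rw [yy, ← map_pow, AdjoinRoot.mk_self]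

/-- The coefficient as an additive map. -/
noncomputable def coH (r i : ℕ) : RR r →+ ZMod 2 :=
  ⟨⟨fun a => co a i, co_zero i⟩, fun a b => co_add a b i⟩

theorem co_sum {ι : Type*} (s : Finset ι) (f : ι → RR r) (i : ℕ) :
    co (∑ j ∈ s, f j) i = ∑ j ∈ s, co (f j) i := map_sum (coH r i) f s

/-- The element with given coefficients. -/
noncomputable def ofCo (r : ℕ) (c : ℕ → ZMod 2) : RR r :=
  mk r (∑ i ∈ range r, monomial i (c i))

theorem co_ofCo (c : ℕ → ZMod 2) {i : ℕ} (hi : i < r) : co (ofCo r c) i = c i := by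
  rw [ofCo, co_mk _ hi, finsetSum_coeff, sum_eq_single_of_mem i (mem_range.2 hi)
    fun j _ hj => by rw [coeff_monomial, if_neg hj], coeff_monomial, if_pos rfl]

/-- Coefficient vectors. -/
noncomputable def coEquiv (r : ℕ) : RR r ≃+ (Fin r → ZMod 2) where
  toFun a i := co a i
  invFun c := ofCo r fun i => if h : i < r then c ⟨i, h⟩ else 0
  left_inv a := co_ext fun i hi => by rw [co_ofCo _ hi, dif_pos hi]
  right_inv c := funext fun i => (co_ofCo _ i.2).trans (dif_pos i.2)
  map_add' a b := funext fun i => co_add a b i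

noncomputable instance finRR (r : ℕ) : Fintype (RR r) :=
  Fintype.ofEquiv _ (coEquiv r).toEquiv.symm

theorem card_RR (r : ℕ) : Fintype.card (RR r) = 2 ^ r := by
  rw [Fintype.card_congr (coEquiv r).toEquiv]
  simp

theorem two_RR : (2 : RR r) = 0 := by
  have : (2 : (ZMod 2)[X]) = 0 := CharP.cast_eq_zero (ZMod 2)[X] 2
  rw [← map_ofNat (mk r) 2, this, map_zero]

theorem add_self (a : RR r) : a + a = 0 := by rw [← two_mul, two_RR, zero_mul]

theorem neg_RR (a : RR r) : -a = a := neg_eq_of_add_eq_zero_left (add_self a)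

theorem nil_of_co {a : RR r} (h : co a 0 = 0) : IsNilpotent a := by
  obtain ⟨f, rfl⟩ := AdjoinRoot.mk_surjective a
  rcases Nat.eq_zero_or_pos r with rfl | hr
  · exact ⟨1, co_ext fun i hi => absurd hi (Nat.not_lt_zero i)⟩
  rw [co_mk _ hr] at h
  obtain ⟨g, rfl⟩ := X_dvd_iff.2 h
  refine ⟨r, ?_⟩
  rw [map_mul, mul_pow, ← yy, yy_pow, zero_mul]

theorem nontrivial_RR (hr : 0 < r) : Nontrivial (RR r) :=
  ⟨⟨1, 0, fun h => by
    have h1 := co_one (r := r) hr
    rw [h, co_zero, if_pos rfl] at h1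
    exact absurd h1 (by decide)⟩⟩

theorem good_RR (hr : 0 < r) : Good (RR r) (yy r) := by
  refine ⟨?_, two_RR, fun l hl => AddMonoidHom.ext fun a => ?_⟩
  · have := nontrivial_RR hr
    refine IsLocalRing.of_isUnit_or_isUnit_one_sub_self fun a => ?_
    rcases z2 (co a 0) with h | h
    · exact Or.inr (nil_of_co h).isUnit_one_sub
    · have h1 : co (1 - a) 0 = 0 := by
        rw [sub_eq_add_neg, neg_RR, co_add, co_one hr, if_pos rfl, h]
        decide
      simpa using Or.inl (nil_of_co h1).isUnit_one_sub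
  · obtain ⟨f, rfl⟩ := AdjoinRoot.mk_surjective a
    induction f using Polynomial.induction_on' with
    | add p q hp hq => rw [map_add, map_add, map_add, hp, hq]
    | monomial n c =>
      rcases z2 c with rfl | rfl
      · simp
      · rw [monomial_one_right_eq_X_pow, map_pow]
        exact hl n

noncomputable instance finSL (r : ℕ) : Fintype (SL3 (RR r)) :=
  haveI : Finite (SL3 (RR r)) := Subtype.finite
  Fintype.ofFinite _

theorem top_nondeg {b : RR r} (h : ∀ a, co (a * b) (r - 1) = 0) : b = 0 := by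
  refine co_ext fun i hi => ?_
  have h1 := h (yy r ^ (r - 1 - i))
  rw [co_mul _ _ (by omega), sum_eq_single_of_mem (r - 1 - i) (mem_range.2 (by omega))
    fun j hj hne => by rw [co_pow _ (by have := mem_range.1 hj; omega), if_neg hne, zero_mul],
    co_pow _ (by omega), if_pos rfl, one_mul, show r - 1 - (r - 1 - i) = i by omega] at h1
  rw [h1, co_zero]

/-- A unit whose powers span the ring. -/
noncomputable def xx (r : ℕ) : RR r := 1 + yy r

theorem unit_xx (r : ℕ) : IsUnit (xx r) := IsNilpotent.isUnit_one_add ⟨r, yy_pow⟩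

theorem gen_xx (hr : 0 < r) (l : RR r →+ ZMod 2) (h : ∀ j < r, l (xx r ^ j) = 0) : l = 0 := by
  have h1 : ∀ j i, i + j < r → l (xx r ^ i * yy r ^ j) = 0 := by
    intro j
    induction j with
    | zero => intro i hi; rw [pow_zero, mul_one]; exact h i hi
    | succ j ih =>
      intro i hi
      have e : xx r ^ i * yy r ^ (j + 1) = xx r ^ (i + 1) * yy r ^ j - xx r ^ i * yy r ^ j := by
        rw [pow_succ, pow_succ (xx r), mul_assoc, ← mul_sub, xx]; ring
      rw [e, map_sub, ih _ (by omega), ih _ (by omega), sub_zero]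
  refine (good_RR hr).gen l fun n => ?_
  by_cases hn : n < r
  · simpa using h1 n 0 (by omega)
  · rw [pow_eq_zero_of_le (not_lt.1 hn) yy_pow, map_zero]

/-- Combinations of the powers of `xx`. -/
noncomputable def Phi (r : ℕ) {k : ℕ} (ε : Fin k → ZMod 2) : RR r := ∑ j, ε j • xx r ^ (j : ℕ)

theorem Phi_cons {k : ℕ} (b : ZMod 2) (ε : Fin k → ZMod 2) :
    Phi r (Fin.cons b ε : Fin (k + 1) → ZMod 2) = b • 1 + xx r * Phi r ε := by
  simp only [Phi, Fin.sum_univ_succ, Fin.cons_zero, Fin.cons_succ, Fin.val_zero, pow_zero,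
    Fin.val_succ, pow_succ', mul_sum, mul_smul_comm]

theorem Phi_bij (hr : 0 < r) : Function.Bijective (Phi r (k := r)) := by
  have : Fact (Nat.Prime 2) := ⟨Nat.prime_two⟩
  refine (Fintype.bijective_iff_surjective_and_card _).2 ⟨?_, by rw [card_RR]; simp⟩
  have h1 : Submodule.span (ZMod 2) (Set.range fun j : Fin r => xx r ^ (j : ℕ)) = ⊤ := by
    by_contra hn
    obtain ⟨f, hf, h⟩ := Submodule.exists_le_ker_of_lt_top _ (lt_top_iff_ne_top.2 hn)
    have h2 := gen_xx hr f.toAddMonoidHom fun j hj =>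
      h (Submodule.subset_span ⟨⟨j, hj⟩, rfl⟩)
    exact hf (LinearMap.ext fun a => DFunLike.congr_fun h2 a)
  intro a
  exact (Submodule.mem_span_range_iff_exists_fun _).1 (h1 ▸ Submodule.mem_top)

end Vale.Agent.P330.Exp
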