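import Mathlib

/-! P330: spectral decomposition for an elementary abelian 2-group acting by isometries. -/

open Finset
open scoped RealInnerProductSpace

namespace Vale.Agent.P330.Exp

/-- The sign of an element of `ZMod 2`. -/
noncomputable def sg (t : ZMod 2) : ℝ := if t = 0 then 1 else -1

theorem z2 : ∀ t : ZMod 2, t = 0 ∨ t = 1 := by decide

theorem sg_zero : sg 0 = 1 := if_pos rfl

theorem sg_one : sg 1 = -1 := if_neg (by decide)

theorem sg_add (a b : ZMod 2) : sg (a + b) = sg a * sg b := by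
  have h : (1 : ZMod 2) + 1 = 0 := by decide
  rcases z2 a with rfl | rfl <;> rcases z2 b with rfl | rfl <;>
    simp only [h, add_zero, zero_add, sg_zero, sg_one] <;> norm_num

theorem sg_sq (a : ZMod 2) : sg a * sg a = 1 := by
  rcases z2 a with rfl | rfl <;> simp only [sg_zero, sg_one] <;> norm_num

theorem norm_sum_sq {V X : Type*} [NormedAddCommGroup V] [InnerProductSpace ℝ V] (s : Finset X)
    (w : X → V) (h : ∀ x y, x ≠ y → ⟪w x, w y⟫ = 0) :
    ‖∑ x ∈ s, w x‖ ^ 2 = ∑ x ∈ s, ‖w x‖ ^ 2 := by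
  rw [← real_inner_self_eq_norm_sq, sum_inner]
  refine sum_congr rfl fun x hx => ?_
  rw [inner_sum, sum_eq_single_of_mem x hx fun y _ hy => h x y hy.symm,
    real_inner_self_eq_norm_sq]

variable {V W : Type} [NormedAddCommGroup V] [InnerProductSpace ℝ V] [AddCommGroup W] [Fintype W]

/-- Characters. -/
abbrev Ch (W : Type) [AddCommGroup W] : Type := W →+ ZMod 2

noncomputable instance chFin : Fintype (Ch W) :=
  haveI : Finite (Ch W) := DFunLike.finite _
  Fintype.ofFinite _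

/-- An action of `W` by isometries, with enough characters. -/
structure Act (U : W → V →ₗᵢ[ℝ] V) : Prop where
  zero : ∀ v, U 0 v = v
  add : ∀ a b v, U (a + b) v = U a (U b v)
  sep : ∀ a : W, a ≠ 0 → ∃ l : Ch W, l a ≠ 0

/-- The spectral projection. -/
noncomputable def P (U : W → V →ₗᵢ[ℝ] V) (χ : Ch W) (v : V) : V :=
  (Fintype.card (Ch W) : ℝ)⁻¹ • ∑ a, sg (χ a) • U a v

variable {U : W → V →ₗᵢ[ℝ] V}

theorem P_add (χ : Ch W) (v w : V) : P U χ (v + w) = P U χ v + P U χ w := by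
  simp only [P, map_add, smul_add, sum_add_distrib]

theorem sum_sg (h : Act U) {a : W} (ha : a ≠ 0) : ∑ χ : Ch W, sg (χ a) = 0 := by
  obtain ⟨l, hl⟩ := h.sep a ha
  have h1 : l a = 1 := (z2 _).resolve_left hl
  have h2 := Equiv.sum_comp (Equiv.addRight l) fun χ : Ch W => sg (χ a)
  simp only [Equiv.coe_addRight, AddMonoidHom.add_apply, sg_add, h1, sg_one, mul_neg, mul_one,
    sum_neg_distrib] at h2
  linarith

theorem P_sum (h : Act U) (v : V) : ∑ χ, P U χ v = v := by
  have hc : (Fintype.card (Ch W) : ℝ) ≠ 0 := Nat.cast_ne_zero.2 Fintype.card_ne_zero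
  unfold P
  rw [← smul_sum, sum_comm]
  simp only [← sum_smul]
  rw [sum_eq_single (0 : W) (fun a _ ha => by rw [sum_sg h ha, zero_smul]) (by simp)]
  simp only [map_zero, sg_zero, sum_const, card_univ, nsmul_eq_mul, mul_one, h.zero, smul_smul]
  rw [inv_mul_cancel₀ hc, one_smul]

theorem U_P (h : Act U) (χ : Ch W) (b : W) (v : V) : U b (P U χ v) = sg (χ b) • P U χ v := by
  have h1 : sg (χ b) • U b (P U χ v) = P U χ v := by
    unfold P
    rw [map_smul, map_sum, smul_comm, smul_sum,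
      ← Equiv.sum_comp (Equiv.addLeft b) fun a => sg (χ a) • U a v]
    refine congrArg _ (sum_congr rfl fun a _ => ?_)
    rw [map_smul, smul_smul, Equiv.coe_addLeft, map_add, sg_add, h.add]
  calc U b (P U χ v) = (sg (χ b) * sg (χ b)) • U b (P U χ v) := by rw [sg_sq, one_smul]
    _ = _ := by rw [mul_smul, h1]

theorem P_orth (h : Act U) (v : V) (χ ψ : Ch W) (hne : χ ≠ ψ) : ⟪P U χ v, P U ψ v⟫ = 0 := by
  obtain ⟨b, hb⟩ := DFunLike.ne_iff.1 hne
  have h1 := (U b).inner_map_map (P U χ v) (P U ψ v)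
  rw [U_P h, U_P h, inner_smul_left, inner_smul_right] at h1
  have h2 : sg (χ b) * sg (ψ b) = -1 := by
    rcases z2 (χ b) with h3 | h3 <;> rcases z2 (ψ b) with h4 | h4
    · exact absurd (h3.trans h4.symm) hb
    · rw [h3, h4, sg_zero, sg_one]; norm_num
    · rw [h3, h4, sg_zero, sg_one]; norm_num
    · exact absurd (h3.trans h4.symm) hb
  simp only [conj_trivial] at h1
  rw [← mul_assoc, h2] at h1
  linarith

open Classical in
/-- The spectral mass of a set of characters. -/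
noncomputable def S (U : W → V →ₗᵢ[ℝ] V) (B : Ch W → Prop) (v : V) : ℝ :=
  ∑ χ, if B χ then ‖P U χ v‖ ^ 2 else 0

theorem S_nonneg (B : Ch W → Prop) (v : V) : 0 ≤ S U B v :=
  sum_nonneg fun _ _ => by split_ifs <;> positivity

open Classical in
theorem sqrt_S (h : Act U) (B : Ch W → Prop) (v : V) :
    √(S U B v) = ‖∑ χ ∈ univ.filter B, P U χ v‖ := by
  rw [S, ← sum_filter, ← norm_sum_sq _ _ (P_orth h v), Real.sqrt_sq (norm_nonneg _)]

theorem sqrt_S_le (h : Act U) (B : Ch W → Prop) (v : V) : √(S U B v) ≤ ‖v‖ := by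
  refine Real.sqrt_le_iff.2 ⟨norm_nonneg _, ?_⟩
  calc S U B v ≤ ∑ χ, ‖P U χ v‖ ^ 2 := sum_le_sum fun _ _ => by split_ifs <;> [rfl; positivity]
    _ = _ := by rw [← norm_sum_sq _ _ (P_orth h v), P_sum h]

theorem sqrt_S_add (h : Act U) (B : Ch W → Prop) (v w : V) :
    √(S U B (v + w)) ≤ √(S U B v) + ‖w‖ := by
  refine le_trans ?_ (add_le_add_right (sqrt_S_le h B w) _)
  simp only [sqrt_S h, P_add, sum_add_distrib]
  exact norm_add_le _ _

theorem move (h : Act U) (g : V →ₗᵢ[ℝ] V) (θ : W ≃+ W) (hg : ∀ a v, g (U a v) = U (θ a) (g v))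
    {B B' : Ch W → Prop} (hB : ∀ ψ, B ψ → B' (ψ.comp θ.toAddMonoidHom)) (v : V) :
    √(S U B v) ≤ √(S U B' v) + ‖g v - v‖ := by
  have h1 : ∀ ψ : Ch W, g (P U (ψ.comp θ.toAddMonoidHom) v) = P U ψ (g v) := by
    intro ψ
    unfold P
    rw [map_smul, map_sum, ← Equiv.sum_comp θ.toEquiv fun a => sg (ψ a) • U a (g v)]
    refine congrArg _ (sum_congr rfl fun a _ => ?_)
    rw [map_smul, hg]
    rfl
  let T : Ch W ≃ Ch W :=
    ⟨fun ψ => ψ.comp θ.toAddMonoidHom, fun ψ => ψ.comp θ.symm.toAddMonoidHom,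
      fun ψ => by ext; simp, fun ψ => by ext; simp⟩
  have h2 : S U B (g v) ≤ S U B' v := by
    unfold S
    refine le_of_le_of_eq (sum_le_sum fun ψ _ => ?_) (Equiv.sum_comp T _)
    by_cases hψ : B ψ
    · rw [if_pos hψ, if_pos (show B' (T ψ) from hB ψ hψ), ← h1, g.norm_map]
      exact le_rfl
    · rw [if_neg hψ]
      split_ifs <;> positivity
  have h3 := sqrt_S_add h B (g v) (v - g v)
  rw [add_sub_cancel, norm_sub_rev] at h3
  exact h3.trans (add_le_add_left (Real.sqrt_le_sqrt h2) _)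

theorem disp (h : Act U) (b : W) (v : V) : ‖U b v - v‖ ^ 2 = 4 * S U (fun χ => χ b ≠ 0) v := by
  have h1 : U b v - v = ∑ χ, (sg (χ b) - 1) • P U χ v := by
    simp only [sub_smul, one_smul, sum_sub_distrib, ← U_P h, ← map_sum, P_sum h]
  rw [h1, norm_sum_sq _ _ fun x y hxy => by
    rw [inner_smul_left, inner_smul_right, P_orth h v x y hxy, mul_zero, mul_zero], S, mul_sum]
  refine sum_congr rfl fun χ _ => ?_
  rw [norm_smul, mul_pow, Real.norm_eq_abs, sq_abs]
  rcases z2 (χ b) with h3 | h3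
  · simp [h3, sg_zero]
  · rw [if_pos (by rw [h3]; decide), h3, sg_one]; ring

end Vale.Agent.P330.Exp
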